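import Vale.Agent.P128.TA1.Den

/-! P128 TA1/Arc. Helper lemma names start with arc_.
σ t = ∫ s in a..t, ‖γ' s‖. Step 1: ‖γ t - γ s‖ ≤ σ t - σ s for s ≤ t in Icc a b (intervalIntegral.integral_eq_sub_of_hasDeriv_right_of_le,
norm_integral_le_integral_norm). Upper bound: g = γ ∘ Function.invFunOn σ (Icc a b) is 1-Lipschitz on σ '' Icc a b ⊆ Icc 0 (σ b) and has the same
image; LipschitzOnWith.hausdorffMeasure_image_le, hausdorffMeasure_real. Lower bound: F t = (μH[1] (γ '' Icc a t)).toReal. For s ≤ t injectivity gives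
μ (γ '' Icc a t) = μ (γ '' Icc a s) + μ (γ '' Ioc s t) (compact sets are measurable, points are null), so
‖γ t - γ s‖ ≤ F t - F s ≤ σ t - σ s (cont_len, upper bound on Icc s t). So σ - F is continuous with lower right slopes at most 0:
image_le_of_liminf_slope_right_le_deriv_boundary with B = 0. len_sphere: γ = circleMap y r on Icc 0 (2 π) (hasDerivAt_circleMap, image_circleMap_Ioc). -/

namespace Vale.Agent.P128

open MeasureTheory Set Metric Filter Topology
open scoped ENNReal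

theorem arc_up {γ : ℝ → ℂ} {σ : ℝ → ℝ} {a b : ℝ}
    (h : ∀ s t, a ≤ s → s ≤ t → t ≤ b → dist (γ t) (γ s) ≤ σ t - σ s) :
    μH[1] (γ '' Icc a b) ≤ ENNReal.ofReal (σ b - σ a) := by
  have h1 : ∀ s ∈ Icc a b, ∀ t ∈ Icc a b, dist (γ s) (γ t) ≤ dist (σ s) (σ t) := by
    intro s hs t ht
    rw [Real.dist_eq]
    rcases le_total s t with e | e
    · rw [dist_comm, abs_sub_comm]
      exact (h s t hs.1 e ht.2).trans (le_abs_self _)
    · exact (h t s ht.1 e hs.2).trans (le_abs_self _)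
  have hg : LipschitzOnWith 1 (γ ∘ Function.invFunOn σ (Icc a b)) (σ '' Icc a b) :=
    LipschitzOnWith.of_dist_le_mul fun x hx y hy => by
      have h2 := h1 _ (Function.invFunOn_mem hx) _ (Function.invFunOn_mem hy)
      rw [Function.invFunOn_eq hx, Function.invFunOn_eq hy] at h2
      simpa using h2
  have h3 : γ '' Icc a b ⊆ (γ ∘ Function.invFunOn σ (Icc a b)) '' (σ '' Icc a b) := by
    rintro _ ⟨t, ht, rfl⟩
    have hx : ∃ s ∈ Icc a b, σ s = σ t := ⟨t, ht, rfl⟩
    have h2 := h1 _ (Function.invFunOn_mem hx) t ht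
    rw [Function.invFunOn_eq hx, dist_self] at h2
    exact ⟨σ t, hx, dist_le_zero.1 h2⟩
  have h4 : σ '' Icc a b ⊆ Icc (σ a) (σ b) := by
    rintro _ ⟨t, ht, rfl⟩
    exact ⟨sub_nonneg.1 (dist_nonneg.trans (h a t le_rfl ht.1 ht.2)),
      sub_nonneg.1 (dist_nonneg.trans (h t b ht.1 ht.2 le_rfl))⟩
  refine (measure_mono h3).trans ((hg.hausdorffMeasure_image_le zero_le_one).trans ?_)
  rw [hausdorffMeasure_real, ← Real.volume_Icc]
  simpa using measure_mono (μ := volume) h4

theorem arc_step {γ : ℝ → ℂ} {σ : ℝ → ℝ} {a b : ℝ} (hc : ContinuousOn γ (Icc a b))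
    (hi : InjOn γ (Icc a b)) (h : ∀ s t, a ≤ s → s ≤ t → t ≤ b → dist (γ t) (γ s) ≤ σ t - σ s)
    {s t : ℝ} (hs : a ≤ s) (hst : s ≤ t) (ht : t ≤ b) :
    dist (γ t) (γ s) ≤ (μH[1] (γ '' Icc a t)).toReal - (μH[1] (γ '' Icc a s)).toReal ∧
      (μH[1] (γ '' Icc a t)).toReal - (μH[1] (γ '' Icc a s)).toReal ≤ σ t - σ s := by
  have := Measure.nullSingletonClass_hausdorff ℂ (d := 1) one_pos
  have up : ∀ x y, a ≤ x → y ≤ b → μH[1] (γ '' Icc x y) ≤ ENNReal.ofReal (σ y - σ x) :=
    fun x y hx hy => arc_up fun s t h1 h2 h3 => h s t (hx.trans h1) h2 (h3.trans hy)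
  have hc' := hc.mono (Icc_subset_Icc hs ht)
  have h1 := measure_union_add_inter (μ := μH[1]) (γ '' Icc a s)
    (isCompact_Icc.image_of_continuousOn hc').measurableSet
  have h2 : γ '' Icc a s ∩ γ '' Icc s t ⊆ {γ s} := by
    rintro _ ⟨⟨x, hx, rfl⟩, y, hy, e⟩
    have h3 : y = x := hi ⟨hs.trans hy.1, hy.2.trans ht⟩ ⟨hx.1, hx.2.trans (hst.trans ht)⟩ e
    rw [le_antisymm hx.2 (h3 ▸ hy.1)]
    rfl
  rw [measure_mono_null h2 (measure_singleton _), add_zero, ← image_union,
    Icc_union_Icc_eq_Icc hs hst] at h1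
  have f1 := ne_top_of_le_ne_top ENNReal.ofReal_ne_top (up a s le_rfl (hst.trans ht))
  have f2 := ne_top_of_le_ne_top ENNReal.ofReal_ne_top (up s t hs ht)
  rw [h1, ENNReal.toReal_add f1 f2, add_sub_cancel_left]
  refine ⟨(ENNReal.ofReal_le_iff_le_toReal f2).1 ((cont_len (isPreconnected_Icc.image γ hc')
    ⟨s, ⟨le_rfl, hst⟩, rfl⟩ ⟨t, ⟨hst, le_rfl⟩, rfl⟩ le_rfl).trans
      (measure_mono inter_subset_left)), ?_⟩
  exact ENNReal.toReal_le_of_le_ofReal (dist_nonneg.trans (h s t hs hst ht)) (up s t hs ht)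

/-- Length of a `C^1` arc. -/
theorem arclen {γ γ' : ℝ → ℂ} {a b : ℝ} (hab : a ≤ b)
    (hd : ∀ t ∈ Icc a b, HasDerivWithinAt γ (γ' t) (Icc a b) t)
    (hc : ContinuousOn γ' (Icc a b)) :
    μH[1] (γ '' Icc a b) ≤ ENNReal.ofReal (∫ t in a..b, ‖γ' t‖) ∧
    (InjOn γ (Icc a b) → μH[1] (γ '' Icc a b) = ENNReal.ofReal (∫ t in a..b, ‖γ' t‖)) := by
  have hγ : ContinuousOn γ (Icc a b) := fun t ht => (hd t ht).continuousWithinAt
  obtain ⟨n, hn⟩ : ∃ n : ℝ → ℝ, n = fun x => ‖γ' (projIcc a b hab x)‖ := ⟨_, rfl⟩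
  have hnc : Continuous n := by
    rw [hn]
    exact (hc.comp_continuous (continuous_subtype_val.comp continuous_projIcc)
      fun x => (projIcc a b hab x).2).norm
  have hne : ∀ x ∈ Icc a b, n x = ‖γ' x‖ := fun x hx => by simp only [hn, projIcc_of_mem hab hx]
  have hI : ∀ s t, a ≤ s → s ≤ t → t ≤ b → ∫ x in s..t, ‖γ' x‖ = ∫ x in s..t, n x :=
    fun s t hs hst ht => intervalIntegral.integral_congr fun x hx => by
      rw [uIcc_of_le hst] at hx
      exact (hne x ⟨hs.trans hx.1, hx.2.trans ht⟩).symm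
  obtain ⟨σ, hσ⟩ : ∃ σ : ℝ → ℝ, σ = fun t => ∫ x in a..t, n x := ⟨_, rfl⟩
  have hσd : ∀ x, HasDerivAt σ (n x) x := fun x => by
    rw [hσ]
    exact (hnc.integral_hasStrictDerivAt a x).hasDerivAt
  have h : ∀ s t, a ≤ s → s ≤ t → t ≤ b → dist (γ t) (γ s) ≤ σ t - σ s := by
    intro s t hs hst ht
    have sub := Icc_subset_Icc hs ht
    have h1 := intervalIntegral.integral_eq_sub_of_hasDerivAt_of_le hst (hγ.mono sub)
      (fun x hx => (hd x (sub (Ioo_subset_Icc_self hx))).hasDerivAt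
        (Icc_mem_nhds (hs.trans_lt hx.1) (hx.2.trans_le ht)))
      ((hc.mono sub).intervalIntegrable_of_Icc hst)
    simp only [hσ]
    rw [dist_eq_norm, ← h1, intervalIntegral.integral_interval_sub_left
      (hnc.intervalIntegrable _ _) (hnc.intervalIntegrable _ _), ← hI s t hs hst ht]
    exact intervalIntegral.norm_integral_le_integral_norm hst
  have e : ∫ t in a..b, ‖γ' t‖ = σ b - σ a := by simp [hσ, hI a b le_rfl hab le_rfl]
  rw [e]
  refine ⟨arc_up h, fun hi => le_antisymm (arc_up h) ?_⟩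
  have hσc : Continuous σ := continuous_iff_continuousAt.2 fun x => (hσd x).continuousAt
  obtain ⟨F, hF⟩ : ∃ F : ℝ → ℝ, F = fun t => (μH[1] (γ '' Icc a t)).toReal := ⟨_, rfl⟩
  have st : ∀ s t, a ≤ s → s ≤ t → t ≤ b → dist (γ t) (γ s) ≤ F t - F s ∧ F t - F s ≤ σ t - σ s :=
    fun s t hs hst ht => by
      rw [hF]
      exact arc_step hγ hi h hs hst ht
  have hFc : ContinuousOn F (Icc a b) := by
    intro x hx
    rw [ContinuousWithinAt, tendsto_iff_dist_tendsto_zero]
    refine squeeze_zero' (Eventually.of_forall fun _ => dist_nonneg) ?_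
      (tendsto_iff_dist_tendsto_zero.1 (hσc.continuousWithinAt (s := Icc a b) (x := x)))
    filter_upwards [self_mem_nhdsWithin] with y hy
    rw [Real.dist_eq, Real.dist_eq, abs_le]
    rcases le_total x y with e | e
    · have := st x y hx.1 e hy.2
      constructor <;> linarith [dist_nonneg.trans this.1, le_abs_self (σ y - σ x), this.2]
    · have := st y x hy.1 e hx.2
      constructor <;> linarith [dist_nonneg.trans this.1, neg_le_abs (σ y - σ x), this.2]
  have key := image_le_of_liminf_slope_right_le_deriv_boundary (f := fun t => -F t)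
    (B := fun t => σ a - σ t) (B' := fun t => -n t) hFc.neg
    (by simp only [hF, sub_self, neg_nonpos, ENNReal.toReal_nonneg])
    (continuous_const.sub hσc).continuousOn
    (fun x _ => ((hσd x).const_sub _).hasDerivWithinAt) (fun x hx r hr => by
      have hm : Ioc x b ∈ 𝓝[>] x := Ioc_mem_nhdsGT hx.2
      have h1 := (hasDerivWithinAt_iff_tendsto_slope' (self_notMem_Ioi (a := x))).1
        ((hd x (Ico_subset_Icc_self hx)).mono_of_mem_nhdsWithin
          (mem_of_superset hm fun y hy => ⟨hx.1.trans hy.1.le, hy.2⟩))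
      have h2 : -r < ‖γ' x‖ := by linarith [hne x (Ico_subset_Icc_self hx)]
      refine Eventually.frequently ?_
      filter_upwards [h1.norm.eventually_const_lt h2, hm] with z h3 h4
      have h5 := (st x z hx.1 h4.1.le h4.2).1
      have h6 : 0 < z - x := sub_pos.2 h4.1
      rw [slope_def_module, norm_smul, norm_inv, Real.norm_of_nonneg h6.le, ← dist_eq_norm,
        inv_mul_eq_div, lt_div_iff₀ h6] at h3
      rw [slope_def_field, div_lt_iff₀ h6]
      linarith) (right_mem_Icc.2 hab)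
  refine ENNReal.ofReal_le_of_le_toReal ?_
  simp only [hF] at key
  linarith

theorem len_sphere (y : ℂ) {r : ℝ} (hr : 0 ≤ r) :
    μH[1] (sphere y r) ≤ ENNReal.ofReal (2 * Real.pi * r) := by
  have h := (arclen (γ := circleMap y r) (γ' := fun θ => circleMap 0 r θ * Complex.I)
    Real.two_pi_pos.le (fun t _ => (hasDerivAt_circleMap y r t).hasDerivWithinAt)
    (by fun_prop)).1
  rw [← abs_of_nonneg hr, ← image_circleMap_Ioc]
  refine (measure_mono (image_mono Ioc_subset_Icc_self)).trans (h.trans_eq ?_)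
  simp

end Vale.Agent.P128
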