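import Vale.Agent.P128.TA1.Pol

/-! P128 TA1/PolI. Helper lemma names start with poli_.
Let ν = (volume.restrict I).prod (volume.restrict (Ioc (-π) π)), Φ p = circleMap y p.1 p.2. polar_gen applied to indicators of measurable
sets (with lintegral_prod) gives volume.restrict {z | dist z y ∈ I} = Measure.map Φ (ν.withDensity fun p => ENNReal.ofReal p.1).
Then integrable_map_measure, integral_map, integrable_withDensity_iff_integrable_smul (or the toReal versions),
integral_withDensity_eq_integral_toReal_smul give that p ↦ p.1 * F (Φ p) is ν integrable with the same integral (p.1 > 0 for ν a.e. p);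
finish with Integrable.integral_prod_left, Integrable.prod_right_ae, integral_prod. -/

namespace Vale.Agent.P128

open MeasureTheory Set Metric Filter Topology
open scoped ENNReal

theorem poli_meas (y : ℂ) : Measurable fun p : ℝ × ℝ => circleMap y p.1 p.2 := by
  have : Continuous fun p : ℝ × ℝ => circleMap y p.1 p.2 := by
    unfold circleMap
    fun_prop
  exact this.measurable

theorem poli_map (y : ℂ) {I : Set ℝ} (hI : MeasurableSet I) (hI0 : I ⊆ Ioi 0) :
    volume.restrict {z : ℂ | dist z y ∈ I} =
      Measure.map (fun p : ℝ × ℝ => circleMap y p.1 p.2)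
        (((volume.restrict I).prod (volume.restrict (Ioc (-Real.pi) Real.pi))).withDensity
          fun p => ENNReal.ofReal p.1) := by
  have hm : Measurable fun p : ℝ × ℝ => ENNReal.ofReal p.1 := measurable_fst.ennreal_ofReal
  ext A hA
  have hF : Measurable (A.indicator (1 : ℂ → ℝ≥0∞)) := measurable_one.indicator hA
  have hG : Measurable fun p : ℝ × ℝ => A.indicator (1 : ℂ → ℝ≥0∞) (circleMap y p.1 p.2) :=
    hF.comp (poli_meas y)
  rw [← lintegral_indicator_one hA, ← lintegral_indicator_one hA, (polar_gen hF y).2 I hI hI0,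
    lintegral_map hF (poli_meas y), lintegral_withDensity_eq_lintegral_mul _ hm hG,
    lintegral_prod _ (hm.mul hG).aemeasurable]
  rfl

/-- Polar coordinates for integrable real functions. -/
theorem polar_int {F : ℂ → ℝ} (y : ℂ) {I : Set ℝ} (hI : MeasurableSet I) (hI0 : I ⊆ Ioi 0)
    (hF : IntegrableOn F {z | dist z y ∈ I}) :
    IntegrableOn (fun s : ℝ => ∫ θ in Ioc (-Real.pi) Real.pi, s * F (circleMap y s θ)) I ∧
    (∀ᵐ s ∂(volume.restrict I),
      IntegrableOn (fun θ => s * F (circleMap y s θ)) (Ioc (-Real.pi) Real.pi)) ∧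
    ∫ z in {z | dist z y ∈ I}, F z =
      ∫ s in I, ∫ θ in Ioc (-Real.pi) Real.pi, s * F (circleMap y s θ) := by
  have hm : Measurable fun p : ℝ × ℝ => ENNReal.ofReal p.1 := measurable_fst.ennreal_ofReal
  set ν := (volume.restrict I).prod (volume.restrict (Ioc (-Real.pi) Real.pi)) with hν
  have hlt : ∀ᵐ p ∂ν, ENNReal.ofReal p.1 < ∞ := Eventually.of_forall fun _ => ENNReal.ofReal_lt_top
  have hmap := poli_map y hI hI0
  rw [← hν] at hmap
  have hpos : ∀ᵐ p ∂ν, 0 < p.1 := by
    have h1 : ∀ᵐ s ∂(volume.restrict I), (0 : ℝ) < s :=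
      (ae_restrict_mem hI).mono fun s hs => hI0 hs
    exact Measure.quasiMeasurePreserving_fst.ae h1
  have hcongr : (fun p : ℝ × ℝ => (ENNReal.ofReal p.1).toReal • F (circleMap y p.1 p.2)) =ᵐ[ν]
      fun p => p.1 * F (circleMap y p.1 p.2) := by
    filter_upwards [hpos] with p hp
    rw [ENNReal.toReal_ofReal hp.le, smul_eq_mul]
  unfold IntegrableOn at hF
  rw [hmap] at hF
  have h1 := (integrable_map_measure hF.aestronglyMeasurable (poli_meas y).aemeasurable).1 hF
  have h2 := ((integrable_withDensity_iff_integrable_smul' hm hlt).1 h1).congr hcongr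
  refine ⟨h2.integral_prod_left, h2.prod_right_ae, ?_⟩
  rw [hmap, integral_map (poli_meas y).aemeasurable hF.aestronglyMeasurable,
    integral_withDensity_eq_integral_toReal_smul hm hlt, integral_congr_ae hcongr,
    integral_prod _ h2]

end Vale.Agent.P128
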