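import Vale.Agent.P128.TA1.Eil
import Vale.Agent.P128.TA1.PolI
import Vale.Agent.P128.TA1.Arc

/-! P128 block TA1: measure tools. The statements (unchanged) are in the files of this folder:
Eil (eilenberg, eilenberg_sphere), Pol (polar_gen, polar), PolI (polar_int),
Den (null_of_density, len_segment, cont_len, vol_zero_of_len), Arc (arclen, len_sphere). -/
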