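import Vale.Agent.P128.Defs

/-! P128 TA1/Den. Helper lemma names start with den_.
null_of_density: S m = points y of S with the bound for all ρ in (0, 1 / (m+1)); S is the union of the S m. For fixed m use
Measure.le_hausdorffMeasure 1 with the measure 2 • (μH[1]).restrict (S m): a set t of diameter d at most 1 / (4 (m+1)) has measure at most
that of closure t (Measure.restrict_apply), empty trace or contained in ball y (2 d) with y in S m (d = 0: one point, use all small ρ or NoAtoms).
Evaluate at T = toMeasurable μH[1] (S m): 2 μ (S m) ≤ μ (S m) < ∞.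
len_segment: hausdorffMeasure_segment. cont_len: the map z ↦ dist z p is 1-Lipschitz, the image of C is preconnected so the image of
C ∩ ball p t contains Ico 0 t; LipschitzWith.hausdorffMeasure_image_le, hausdorffMeasure_real, Real.volume_Ico.
vol_zero_of_len: μH[2] S = 0 (Measure.hausdorffMeasure_zero_or_top) and volume is absolutely continuous with respect to μH[2]
(Real.hausdorffMeasure_of_finrank_lt style files: isAddHaarMeasure_hausdorffMeasure, Measure.absolutelyContinuous_isAddHaarMeasure, or
Measure.le_hausdorffMeasure with volume t ≤ 4 diam t ^ 2). -/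

namespace Vale.Agent.P128

open MeasureTheory Set Metric Filter Topology
open scoped ENNReal

theorem den_piece {K A : Set ℂ} (hA : A ⊆ K) (hfin : μH[1] A < ∞) {δ : ℝ} (hδ : 0 < δ)
    (h : ∀ y ∈ A, ∀ ρ ∈ Ioo (0 : ℝ) δ, μH[1] (K ∩ ball y ρ) ≤ ENNReal.ofReal (ρ / 4)) :
    μH[1] A = 0 := by
  have : NullSingletonClass (μH[1] : Measure ℂ) := Measure.nullSingletonClass_hausdorff ℂ one_pos
  have hle : (2 : ℝ≥0∞) • (μH[1] : Measure ℂ).restrict A ≤ μH[1] := by
    refine Measure.le_hausdorffMeasure 1 _ (ENNReal.ofReal (δ / 4))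
      (ENNReal.ofReal_pos.2 (by positivity)) fun t ht => ?_
    rw [ENNReal.rpow_one, Measure.smul_apply, smul_eq_mul]
    have h1 : (μH[1] : Measure ℂ).restrict A t ≤ μH[1] (closure t ∩ A) := by
      rw [← Measure.restrict_apply isClosed_closure.measurableSet]
      exact measure_mono subset_closure
    have hne : ediam t ≠ ∞ := ne_top_of_le_ne_top ENNReal.ofReal_ne_top ht
    rcases (closure t ∩ A).eq_empty_or_nonempty with he | ⟨y, hyt, hyA⟩
    · rw [he, measure_empty] at h1
      rw [le_antisymm h1 zero_le, mul_zero]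
      exact zero_le
    have hd : ∀ z ∈ closure t, dist z y ≤ (ediam t).toReal := by
      intro z hz
      have h2 : edist z y ≤ ediam (closure t) := edist_le_ediam_of_mem hz hyt
      rw [ediam_closure] at h2
      rw [dist_edist]
      exact ENNReal.toReal_mono hne h2
    have hd4 : (ediam t).toReal ≤ δ / 4 := ENNReal.toReal_le_of_le_ofReal (by positivity) ht
    rcases (ENNReal.toReal_nonneg (a := ediam t)).eq_or_lt with h0 | h0
    · have h2 : closure t ∩ A ⊆ {y} := by
        intro z hz
        have := hd z hz.1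
        rw [← h0] at this
        exact dist_le_zero.1 this
      have h3 : μH[1] (closure t ∩ A) = 0 := measure_mono_null h2 (measure_singleton y)
      rw [h3] at h1
      rw [le_antisymm h1 zero_le, mul_zero]
      exact zero_le
    · have h2 : closure t ∩ A ⊆ K ∩ ball y (2 * (ediam t).toReal) := by
        intro z hz
        refine ⟨hA hz.2, ?_⟩
        have := hd z hz.1
        rw [mem_ball]
        linarith
      have h3 := h y hyA (2 * (ediam t).toReal) ⟨by linarith, by linarith⟩
      calc 2 * (μH[1] : Measure ℂ).restrict A t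
          ≤ 2 * ENNReal.ofReal (2 * (ediam t).toReal / 4) := by
            gcongr
            exact h1.trans ((measure_mono h2).trans h3)
        _ = ENNReal.ofReal (2 * (2 * (ediam t).toReal / 4)) := by
            rw [ENNReal.ofReal_mul (by norm_num : (0 : ℝ) ≤ 2)]
            simp
        _ = ediam t := by
            rw [show 2 * (2 * (ediam t).toReal / 4) = (ediam t).toReal by ring,
              ENNReal.ofReal_toReal hne]
  have h1 := Measure.le_iff'.1 hle (toMeasurable μH[1] A)
  rw [Measure.smul_apply, smul_eq_mul, measure_toMeasurable,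
    Measure.restrict_apply (measurableSet_toMeasurable _ _),
    inter_eq_self_of_subset_right (subset_toMeasurable _ _), two_mul] at h1
  have h2 : μH[1] A + μH[1] A ≤ μH[1] A + 0 := by rwa [add_zero]
  exact le_antisymm ((ENNReal.add_le_add_iff_left hfin.ne).1 h2) zero_le

/-- A set of finite length on which the density is at most `1/4` is null. -/
theorem null_of_density {K S : Set ℂ} (hS : S ⊆ K) (hfin : μH[1] S < ∞)
    (h : ∀ y ∈ S, ∀ᶠ ρ in 𝓝[>] (0 : ℝ), μH[1] (K ∩ ball y ρ) ≤ ENNReal.ofReal (ρ / 4)) :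
    μH[1] S = 0 := by
  have hU : S ⊆ ⋃ m : ℕ, {y ∈ S | ∀ ρ ∈ Ioo (0 : ℝ) (1 / ((m : ℝ) + 1)),
      μH[1] (K ∩ ball y ρ) ≤ ENNReal.ofReal (ρ / 4)} := by
    intro y hy
    obtain ⟨u, hu, hsub⟩ := mem_nhdsGT_iff_exists_Ioo_subset.1 (h y hy)
    obtain ⟨m, hm⟩ := exists_nat_one_div_lt (mem_Ioi.1 hu)
    exact mem_iUnion.2 ⟨m, hy, fun ρ hρ => hsub ⟨hρ.1, hρ.2.trans hm⟩⟩
  refine measure_mono_null hU (measure_iUnion_null fun m => ?_)
  exact den_piece (K := K) (fun y hy => hS hy.1)
    (lt_of_le_of_lt (measure_mono fun y hy => hy.1) hfin) Nat.one_div_pos_of_nat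
    fun y hy ρ hρ => hy.2 ρ hρ

/-- Lengths of segments and circles. -/
theorem len_segment (p q : ℂ) : μH[1] (segment ℝ p q) = ENNReal.ofReal (dist p q) := by
  rw [hausdorffMeasure_segment, edist_dist]

/-- A connected set leaving a ball has length at least the radius in it. -/
theorem cont_len {C : Set ℂ} (hC : IsPreconnected C) {p q : ℂ} (hp : p ∈ C) (hq : q ∈ C)
    {t : ℝ} (ht : t ≤ dist q p) : ENNReal.ofReal t ≤ μH[1] (C ∩ ball p t) := by
  have hl : LipschitzWith 1 (fun z : ℂ => dist z p) := LipschitzWith.dist_left p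
  have him : IsPreconnected ((fun z : ℂ => dist z p) '' C) :=
    hC.image _ hl.continuous.continuousOn
  have hsub : Ico 0 t ⊆ (fun z : ℂ => dist z p) '' (C ∩ ball p t) := by
    intro s hs
    have h0 : (0 : ℝ) ∈ (fun z : ℂ => dist z p) '' C := ⟨p, hp, dist_self p⟩
    have h1 : dist q p ∈ (fun z : ℂ => dist z p) '' C := ⟨q, hq, rfl⟩
    obtain ⟨z, hz, hzs⟩ := him.Icc_subset h0 h1 ⟨hs.1, hs.2.le.trans ht⟩
    refine ⟨z, ⟨hz, ?_⟩, hzs⟩
    rw [mem_ball]
    have : dist z p = s := hzs
    rw [this]
    exact hs.2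
  calc ENNReal.ofReal t = volume (Ico (0 : ℝ) t) := by rw [Real.volume_Ico, sub_zero]
    _ ≤ volume ((fun z : ℂ => dist z p) '' (C ∩ ball p t)) := measure_mono hsub
    _ = μH[1] ((fun z : ℂ => dist z p) '' (C ∩ ball p t)) := by rw [hausdorffMeasure_real]
    _ ≤ μH[1] (C ∩ ball p t) := by
      simpa using hl.hausdorffMeasure_image_le zero_le_one (C ∩ ball p t)

/-- Finite length implies zero area. -/
theorem vol_zero_of_len {S : Set ℂ} (h : μH[1] S < ∞) : volume S = 0 := by
  have h2 : μH[2] S = 0 :=
    (Measure.hausdorffMeasure_zero_or_top (one_lt_two : (1 : ℝ) < 2) S).resolve_right h.ne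
  have h3 : (μH[Module.finrank ℝ ℂ] : Measure ℂ) S = 0 := by
    rw [Complex.finrank_real_complex]
    exact_mod_cast h2
  exact Measure.absolutelyContinuous_isAddHaarMeasure volume (μH[Module.finrank ℝ ℂ] : Measure ℂ) h3

end Vale.Agent.P128
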