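import Vale.Agent.P128.Defs

/-! P128 TA1/Eil. Helper lemma names start with eil_.
N k s = number of half open squares Q of side 1 / (k+1) (finer and nested: side 2 ^ (-k)) with s in f (K ∩ Q). The image of the
sigma compact set K ∩ Q is measurable; the count is the supremum of N k; the Lebesgue measure of f (A) is at most the length of A. -/

namespace Vale.Agent.P128

open MeasureTheory Set Metric Filter Topology
open scoped ENNReal

/-- The index of the half open square of side `1 / (k + 1)` that contains `z`. -/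
noncomputable def eil_c (k : ℕ) (z : ℂ) : ℤ × ℤ := (⌊((k : ℝ) + 1) * z.re⌋, ⌊((k : ℝ) + 1) * z.im⌋)

theorem eil_lc (k : ℕ) (q : ℤ × ℤ) : IsLocallyClosed (eil_c k ⁻¹' {q}) := by
  have h : ∀ (g : ℂ → ℝ) (i : ℤ), Continuous g → IsLocallyClosed {z | ⌊g z⌋ = i} := fun g i hg => by
    have e : {z | ⌊g z⌋ = i} = {z | (i : ℝ) ≤ g z} ∩ {z | g z < i + 1} := by
      ext z
      exact Int.floor_eq_iff
    rw [e]
    exact (isClosed_le continuous_const hg).isLocallyClosed.inter
      (isOpen_lt hg continuous_const).isLocallyClosed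
  have e : eil_c k ⁻¹' {q} = {z : ℂ | ⌊((k : ℝ) + 1) * z.re⌋ = q.1} ∩
      {z : ℂ | ⌊((k : ℝ) + 1) * z.im⌋ = q.2} := by
    ext z
    exact Prod.ext_iff
  rw [e]
  exact (h _ _ (by fun_prop)).inter (h _ _ (by fun_prop))

theorem eil_meas {A : Set ℂ} (hA : IsLocallyClosed A) {f : ℂ → ℝ} (hf : Continuous f) :
    MeasurableSet (f '' A) := by
  have := hA.locallyCompactSpace
  obtain ⟨C, hC, e⟩ := (isSigmaCompact_iff_sigmaCompactSpace.2
    (inferInstance : SigmaCompactSpace A)).image hf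
  rw [← e]
  exact MeasurableSet.iUnion fun n => (hC n).measurableSet

theorem eil_floor {a b : ℝ} (h : a ≠ b) :
    ∀ᶠ k : ℕ in atTop, ⌊((k : ℝ) + 1) * a⌋ ≠ ⌊((k : ℝ) + 1) * b⌋ := by
  have h0 : 0 < |a - b| := abs_pos.2 (sub_ne_zero.2 h)
  filter_upwards [(tendsto_natCast_atTop_atTop (R := ℝ)).eventually_ge_atTop (1 / |a - b|)]
    with k hk e
  have h1 := Int.abs_sub_lt_one_of_floor_eq_floor e
  rw [← mul_sub, abs_mul, abs_of_pos (by positivity : (0 : ℝ) < k + 1)] at h1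
  rw [div_le_iff₀ h0] at hk
  nlinarith

theorem eil_sep {z w : ℂ} (h : z ≠ w) : ∀ᶠ k : ℕ in atTop, eil_c k z ≠ eil_c k w := by
  by_cases h1 : z.re = w.re
  · filter_upwards [eil_floor (a := z.im) (b := w.im) fun h2 => h (Complex.ext h1 h2)] with k hk e
    exact hk (congrArg Prod.snd e)
  · filter_upwards [eil_floor h1] with k hk e
    exact hk (congrArg Prod.fst e)

theorem eil_liminf (A : Set ℂ) :
    (A.encard : ℝ≥0∞) = liminf (fun k => ((eil_c k '' A).encard : ℝ≥0∞)) atTop := by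
  refine le_antisymm ?_ (liminf_le_of_frequently_le' (Frequently.of_forall fun k =>
    ENat.toENNReal_le.2 (encard_image_le _ _)))
  have key : ∀ n : ℕ, (n : ℕ∞) ≤ A.encard →
      (n : ℝ≥0∞) ≤ liminf (fun k => ((eil_c k '' A).encard : ℝ≥0∞)) atTop := fun n hn => by
    obtain ⟨t, ht, e⟩ := exists_subset_encard_eq hn
    have hf : t.Finite := finite_of_encard_eq_coe e
    have h1 : ∀ᶠ k in atTop, ∀ z ∈ t, ∀ w ∈ t, z ≠ w → eil_c k z ≠ eil_c k w :=
      (eventually_all_finite hf).2 fun z _ => (eventually_all_finite hf).2 fun w _ => by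
        by_cases h : z = w
        · exact Eventually.of_forall fun k h' => absurd h h'
        · exact (eil_sep h).mono fun k hk _ => hk
    refine le_liminf_of_le (by isBoundedDefault) (h1.mono fun k hk => ?_)
    have h2 : InjOn (eil_c k) t := fun z hz w hw h => by_contra fun h' => hk z hz w hw h' h
    have h3 : (n : ℕ∞) ≤ (eil_c k '' A).encard := by
      rw [← e, ← h2.encard_image]
      exact encard_le_encard (image_mono ht)
    exact_mod_cast ENat.toENNReal_le.2 h3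
  induction hA : A.encard using ENat.recTopCoe with
  | top =>
    rw [ENat.toENNReal_top, top_le_iff]
    exact ENNReal.eq_top_of_forall_nnreal_le fun r => by
      obtain ⟨n, hn⟩ := exists_nat_ge r
      exact le_trans (by exact_mod_cast hn) (key n (hA ▸ le_top))
  | coe n => exact_mod_cast key n hA.ge

theorem eil_sum (K : Set ℂ) (f : ℂ → ℝ) (k : ℕ) (s : ℝ) :
    ((eil_c k '' (K ∩ f ⁻¹' {s})).encard : ℝ≥0∞) =
      ∑' q : ℤ × ℤ, (f '' (K ∩ eil_c k ⁻¹' {q})).indicator 1 s := by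
  rw [← ENNReal.tsum_set_one, tsum_subtype _ fun _ => (1 : ℝ≥0∞)]
  refine tsum_congr fun q => ?_
  have e : q ∈ eil_c k '' (K ∩ f ⁻¹' {s}) ↔ s ∈ f '' (K ∩ eil_c k ⁻¹' {q}) :=
    ⟨fun ⟨z, hz, h⟩ => ⟨z, ⟨hz.1, h⟩, hz.2⟩, fun ⟨z, hz, h⟩ => ⟨z, ⟨hz.1, h⟩, hz.2⟩⟩
  by_cases h : q ∈ eil_c k '' (K ∩ f ⁻¹' {s})
  · rw [indicator_of_mem h, indicator_of_mem (e.1 h), Pi.one_apply]
  · rw [indicator_of_notMem h, indicator_of_notMem (mt e.2 h)]

/-- Eilenberg inequality. -/
theorem eilenberg {K : Set ℂ} (hK : IsClosed K) {f : ℂ → ℝ} (hf : LipschitzWith 1 f) :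
    Measurable (fun s : ℝ => ((K ∩ f ⁻¹' {s}).encard : ℝ≥0∞)) ∧
    ∀ I : Set ℝ, MeasurableSet I →
      ∫⁻ s in I, ((K ∩ f ⁻¹' {s}).encard : ℝ≥0∞) ≤ μH[1] (K ∩ f ⁻¹' I) := by
  have hm : ∀ k q, MeasurableSet (f '' (K ∩ eil_c k ⁻¹' {q})) := fun k q =>
    eil_meas (hK.isLocallyClosed.inter (eil_lc k q)) hf.continuous
  have hi : ∀ k q, Measurable ((f '' (K ∩ eil_c k ⁻¹' {q})).indicator (1 : ℝ → ℝ≥0∞)) :=
    fun k q => measurable_one.indicator (hm k q)
  have hN : ∀ k, Measurable fun s => ((eil_c k '' (K ∩ f ⁻¹' {s})).encard : ℝ≥0∞) := fun k => by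
    simp only [eil_sum]
    exact Measurable.tsum (hi k)
  simp only [fun s => eil_liminf (K ∩ f ⁻¹' {s})]
  refine ⟨Measurable.liminf hN, fun I hI => (lintegral_liminf_le hN).trans
    (liminf_le_of_frequently_le' (Frequently.of_forall fun k => ?_))⟩
  simp only [eil_sum]
  rw [lintegral_tsum fun q => (hi k q).aemeasurable]
  have hc : ∀ q, MeasurableSet (eil_c k ⁻¹' {q}) := fun q => by
    obtain ⟨U, Z, hU, hZ, e⟩ := eil_lc k q
    exact e ▸ hU.measurableSet.inter hZ.measurableSet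
  have h1 : ∀ q, ∫⁻ s in I, (f '' (K ∩ eil_c k ⁻¹' {q})).indicator 1 s ≤
      μH[1] (K ∩ f ⁻¹' I ∩ eil_c k ⁻¹' {q}) := fun q => by
    rw [lintegral_indicator_one (hm k q), Measure.restrict_apply (hm k q), ← image_inter_preimage,
      ← hausdorffMeasure_real, inter_right_comm]
    simpa using hf.hausdorffMeasure_image_le zero_le_one (K ∩ f ⁻¹' I ∩ eil_c k ⁻¹' {q})
  refine (ENNReal.tsum_le_tsum h1).trans ?_
  refine (tsum_meas_le_meas_iUnion_of_disjoint _ (fun q => (hK.measurableSet.inter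
    (hf.continuous.measurable hI)).inter (hc q)) fun q q' h => ?_).trans
    (measure_mono (iUnion_subset fun q => inter_subset_left))
  exact disjoint_left.2 fun z a b => h (a.2.symm.trans b.2)

/-- Eilenberg inequality for circles. -/
theorem eilenberg_sphere {K : Set ℂ} (hK : IsClosed K) (y : ℂ) :
    Measurable (fun s : ℝ => ((K ∩ sphere y s).encard : ℝ≥0∞)) ∧
    ∀ I : Set ℝ, MeasurableSet I →
      ∫⁻ s in I, ((K ∩ sphere y s).encard : ℝ≥0∞) ≤ μH[1] (K ∩ {z | dist z y ∈ I}) :=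
  eilenberg hK (LipschitzWith.dist_left y)

end Vale.Agent.P128
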