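import Vale.Agent.P128.Defs

/-! P128 TA1/Pol. Helper lemma names start with pol_.
polar_gen: measurability by Measurable.lintegral_prod_right (the map (s, θ) to circleMap y s θ is continuous). For the formula write the
left side as a lintegral over ℂ of an indicator, translate by y (lintegral_add_left_eq_self), use Complex.lintegral_comp_polarCoord_symm
(polarCoord.target = Ioi 0 ×ˢ Ioo (-π) π), Measure.volume_eq_prod, setLIntegral_prod or Measure.prod_restrict with lintegral_prod,
Complex.polarCoord_symm_apply, circleMap, Complex.exp_mul_I, dist (circleMap y s θ) y = |s|, Measure.restrict_congr_set Ioo_ae_eq_Ioc.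
polar: apply polar_gen to F = indicator of the complement of K of ‖fderiv ℝ u z‖ₑ ^ 2 (measurable_fderiv). The ball and the closed
ball differ from {z | dist z y ∈ Ioo 0 r} by {y} and the sphere, which are null (Measure.addHaar_sphere, measure_singleton). -/

namespace Vale.Agent.P128

open MeasureTheory Set Metric Filter Topology
open scoped ENNReal

theorem pol_ae (y : ℂ) (r : ℝ) {B : Set ℂ} (h1 : ball y r ⊆ B) (h2 : B ⊆ closedBall y r) :
    B =ᵐ[volume] {z | dist z y ∈ Ioo 0 r} := by
  have h3 : ∀ᵐ z : ℂ, z ∉ sphere y r := measure_eq_zero_iff_ae_notMem.1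
    (Measure.addHaar_sphere volume y r)
  have h4 : ∀ᵐ z : ℂ, z ∉ ({y} : Set ℂ) := measure_eq_zero_iff_ae_notMem.1 (measure_singleton y)
  filter_upwards [h3, h4] with z a b
  refine propext ⟨fun h => ⟨dist_pos.2 b, lt_of_le_of_ne (h2 h) a⟩, fun h => h1 h.2⟩

/-- Polar coordinates. -/
theorem polar_gen {F : ℂ → ℝ≥0∞} (hF : Measurable F) (y : ℂ) :
    Measurable (fun s : ℝ => ∫⁻ θ in Ioc (-Real.pi) Real.pi,
      ENNReal.ofReal s * F (circleMap y s θ)) ∧
    ∀ I : Set ℝ, MeasurableSet I → I ⊆ Ioi 0 →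
      ∫⁻ z in {z | dist z y ∈ I}, F z =
        ∫⁻ s in I, ∫⁻ θ in Ioc (-Real.pi) Real.pi, ENNReal.ofReal s * F (circleMap y s θ) := by
  have hc : Continuous fun p : ℝ × ℝ => circleMap y p.1 p.2 := by
    unfold circleMap
    fun_prop
  have hm : Measurable fun p : ℝ × ℝ => ENNReal.ofReal p.1 * F (circleMap y p.1 p.2) :=
    measurable_fst.ennreal_ofReal.mul (hF.comp hc.measurable)
  refine ⟨hm.lintegral_prod_right', fun I hI hI0 => ?_⟩
  have hS : MeasurableSet {z : ℂ | dist z y ∈ I} :=
    (continuous_id.dist continuous_const).measurable hI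
  have hT : MeasurableSet (Ioi (0 : ℝ) ×ˢ Ioo (-Real.pi) Real.pi) :=
    measurableSet_Ioi.prod measurableSet_Ioo
  rw [← lintegral_indicator hS, ← lintegral_add_left_eq_self _ y,
    ← Complex.lintegral_comp_polarCoord_symm]
  have h1 : ∫⁻ p in polarCoord.target, ENNReal.ofReal p.1 •
      {z : ℂ | dist z y ∈ I}.indicator F (y + Complex.polarCoord.symm p) =
      ∫⁻ p in Ioi (0 : ℝ) ×ˢ Ioo (-Real.pi) Real.pi, (I ×ˢ (univ : Set ℝ)).indicator
        (fun p : ℝ × ℝ => ENNReal.ofReal p.1 * F (circleMap y p.1 p.2)) p := by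
    refine setLIntegral_congr_fun hT fun p hp => ?_
    have e : y + Complex.polarCoord.symm p = circleMap y p.1 p.2 := by
      rw [Complex.polarCoord_symm_apply, circleMap, Complex.exp_mul_I]
      simp
    have d : dist (circleMap y p.1 p.2) y = p.1 := by
      have := circleMap_mem_sphere y (le_of_lt hp.1) p.2
      exact this
    by_cases h : p.1 ∈ I
    · have h' : circleMap y p.1 p.2 ∈ {z : ℂ | dist z y ∈ I} := by
        show dist (circleMap y p.1 p.2) y ∈ I
        rwa [d]
      simp only [e]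
      rw [indicator_of_mem h', indicator_of_mem (mem_prod.2 ⟨h, mem_univ _⟩), smul_eq_mul]
    · have h' : circleMap y p.1 p.2 ∉ {z : ℂ | dist z y ∈ I} := by
        show dist (circleMap y p.1 p.2) y ∉ I
        rwa [d]
      simp only [e]
      rw [indicator_of_notMem h', indicator_of_notMem fun hh => h (mem_prod.1 hh).1, smul_zero]
  rw [h1, lintegral_indicator (hI.prod MeasurableSet.univ),
    Measure.restrict_restrict (hI.prod MeasurableSet.univ), prod_inter_prod, univ_inter,
    inter_eq_left.2 hI0, Measure.volume_eq_prod, setLIntegral_prod _ hm.aemeasurable,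
    Measure.restrict_congr_set Ioo_ae_eq_Ioc]

/-- The Dirichlet energy of an annulus is the integral of `Dp`. -/
theorem polar {K : Set ℂ} (hK : IsClosed K) (u : ℂ → ℝ) (y : ℂ) :
    Measurable (Dp u K y) ∧
    (∀ I : Set ℝ, MeasurableSet I → I ⊆ Ioi 0 →
      Dir u ({z | dist z y ∈ I} \ K) = ∫⁻ s in I, Dp u K y s) ∧
    ∀ r : ℝ, Dir u (ball y r \ K) = ∫⁻ s in Ioo 0 r, Dp u K y s ∧
      Dir u (closedBall y r \ K) = ∫⁻ s in Ioo 0 r, Dp u K y s := by
  have hF : Measurable (Kᶜ.indicator fun z => ‖fderiv ℝ u z‖ₑ ^ 2) :=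
    ((measurable_fderiv ℝ u).enorm.pow_const 2).indicator hK.measurableSet.compl
  have hD : Dp u K y = fun s : ℝ => ∫⁻ θ in Ioc (-Real.pi) Real.pi, ENNReal.ofReal s *
      Kᶜ.indicator (fun z => ‖fderiv ℝ u z‖ₑ ^ 2) (circleMap y s θ) := by
    funext s
    have hm : MeasurableSet (circleMap y s ⁻¹' Kᶜ) :=
      (continuous_circleMap y s).measurable hK.measurableSet.compl
    have e : offK K y s = circleMap y s ⁻¹' Kᶜ ∩ Ioc (-Real.pi) Real.pi := by
      ext θ
      exact and_comm
    rw [Dp, e, ← Measure.restrict_restrict hm, ← lintegral_indicator hm]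
    refine lintegral_congr fun θ => ?_
    by_cases h : circleMap y s θ ∈ Kᶜ
    · rw [indicator_of_mem h, indicator_of_mem (show θ ∈ circleMap y s ⁻¹' Kᶜ from h)]
    · rw [indicator_of_notMem h, indicator_of_notMem (show θ ∉ circleMap y s ⁻¹' Kᶜ from h),
        mul_zero]
  obtain ⟨h1, h2⟩ := polar_gen hF y
  have h3 : ∀ I : Set ℝ, MeasurableSet I → I ⊆ Ioi 0 →
      Dir u ({z | dist z y ∈ I} \ K) = ∫⁻ s in I, Dp u K y s := fun I hI hI0 => by
    rw [hD, ← h2 I hI hI0, lintegral_indicator hK.measurableSet.compl,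
      Measure.restrict_restrict hK.measurableSet.compl, Dir, inter_comm]
    rfl
  refine ⟨hD ▸ h1, h3, fun r => ?_⟩
  rw [← h3 _ measurableSet_Ioo Ioo_subset_Ioi_self]
  exact ⟨setLIntegral_congr ((pol_ae y r subset_rfl ball_subset_closedBall).diff EventuallyEq.rfl),
    setLIntegral_congr ((pol_ae y r ball_subset_closedBall subset_rfl).diff EventuallyEq.rfl)⟩

end Vale.Agent.P128
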